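import Mathlib

open scoped ContDiff

namespace P216

/-- The Euclidean space. -/
abbrev E (N : ℕ) := EuclideanSpace ℝ (Fin N)

/-- The one-parameter group `exp (t A)`. -/
noncomputable def fl {N : ℕ} (A : E N →L[ℝ] E N) (t : ℝ) : E N →L[ℝ] E N :=
  NormedSpace.exp (t • A)

/-- `A` is skew-symmetric. -/
def Skew {N : ℕ} (A : E N →L[ℝ] E N) : Prop := ∀ x y, inner ℝ (A x) y = - inner ℝ x (A y)

/-- A geodesic of the submanifold `M` of Euclidean space: a smooth curve in `M` whose second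
derivative is normal to `M`. -/
def IsGeodesic {N : ℕ} (M : Set (E N)) (c : ℝ → E N) : Prop :=
  ContDiff ℝ ∞ c ∧ (∀ t, c t ∈ M) ∧
    ∀ t, ∀ β : ℝ → E N, ContDiff ℝ ∞ β → (∀ s, β s ∈ M) → β 0 = c t →
      inner ℝ (deriv (deriv c) t) (deriv β 0) = 0

/-- A closed geodesic: a nonconstant periodic geodesic. -/
def IsClosedGeodesic {N : ℕ} (M : Set (E N)) (c : ℝ → E N) : Prop :=
  IsGeodesic M c ∧ (∃ s t, c s ≠ c t) ∧ ∃ τ : ℝ, 0 < τ ∧ ∀ t, c (t + τ) = c t

end P216
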