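import Mathlib
import Vale.Agent.Lib.P216.Defs

open scoped ContDiff

namespace P216

variable {N : ℕ} {A : E N →L[ℝ] E N}

private theorem a0 : (0 : ℝ) • A = 0 := by ext x; simp

private theorem a1 (s t : ℝ) : (s + t) • A = s • A + t • A := by
  ext x : 1
  change (s + t) • A x = s • A x + t • A x
  rw [add_smul]

private theorem a2 (s t : ℝ) : Commute (s • A) (t • A) := by
  change (s • A) * (t • A) = (t • A) * (s • A)
  ext x : 1
  change s • A (t • A x) = t • A (s • A x)
  rw [map_smul, map_smul, smul_comm]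

private theorem a3 (t : ℝ) : Commute A (t • A) := by
  change A * (t • A) = (t • A) * A
  ext x : 1
  change A (t • A x) = t • A (A x)
  rw [map_smul]

theorem fl_zero : fl A 0 = 1 := by
  unfold fl
  rw [a0, NormedSpace.exp_zero]

private theorem fl_mul (s t : ℝ) : fl A (s + t) = fl A s * fl A t := by
  unfold fl
  rw [a1]
  exact NormedSpace.exp_add_of_commute_of_mem_ball (𝕂 := ℝ) (a2 s t)
    ((NormedSpace.expSeries_radius_eq_top ℝ (E N →L[ℝ] E N)).symm ▸ edist_lt_top _ _)
    ((NormedSpace.expSeries_radius_eq_top ℝ (E N →L[ℝ] E N)).symm ▸ edist_lt_top _ _)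

theorem fl_add (s t : ℝ) (x : E N) : fl A (s + t) x = fl A s (fl A t x) := by
  rw [fl_mul]
  rfl

theorem fl_neg_cancel (t : ℝ) (x : E N) : fl A (-t) (fl A t x) = x := by
  rw [← fl_add, neg_add_cancel, fl_zero]
  rfl

theorem fl_comm (t : ℝ) (x : E N) : A (fl A t x) = fl A t (A x) := by
  have hc : Commute A (fl A t) := by
    unfold fl
    exact (a3 t).exp_right
  have h1 := congrArg (fun B : E N →L[ℝ] E N => B x) hc.eq
  exact h1

theorem fl_hasDerivAt (t : ℝ) (x : E N) :
    HasDerivAt (fun s => fl A s x) (A (fl A t x)) t := by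
  have h1 : HasDerivAt (fun u : ℝ => fl A u) (A * fl A t) t := by
    unfold fl
    exact hasDerivAt_exp_smul_const' A t
  have h2 := h1.clm_apply (hasDerivAt_const t x)
  simpa using h2

theorem fl_contDiff (x : E N) : ContDiff ℝ ∞ (fun s => fl A s x) := by
  have h0 : ContDiff ℝ ∞ (NormedSpace.exp : (E N →L[ℝ] E N) → (E N →L[ℝ] E N)) :=
    contDiff_iff_contDiffAt.2 fun y => (NormedSpace.exp_analytic (𝕂 := ℝ) y).contDiffAt
  have h1 : ContDiff ℝ ∞ (fun s : ℝ => s • A) := contDiff_id.smul contDiff_const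
  have h2 : ContDiff ℝ ∞ (fun s : ℝ => fl A s) := h0.comp h1
  exact h2.clm_apply contDiff_const

theorem fl_inner (hA : Skew A) (t : ℝ) (x y : E N) :
    inner ℝ (fl A t x) (fl A t y) = inner ℝ x y := by
  have h1 : ∀ s : ℝ, HasDerivAt (fun s => inner ℝ (fl A s x) (fl A s y)) 0 s := by
    intro s
    have h2 := (fl_hasDerivAt (A := A) s x).inner ℝ (fl_hasDerivAt (A := A) s y)
    have h3 := hA (fl A s x) (fl A s y)
    have h4 : inner ℝ (fl A s x) (A (fl A s y)) + inner ℝ (A (fl A s x)) (fl A s y) = (0 : ℝ) := by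
      rw [h3]
      ring
    rw [h4] at h2
    exact h2
  have h5 := is_const_of_deriv_eq_zero (fun s => (h1 s).differentiableAt)
    (fun s => (h1 s).deriv) t 0
  simp only [fl_zero] at h5
  exact h5

end P216
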