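import Mathlib
import Vale.Agent.Lib.P216.Defs

namespace P216

variable {N : ℕ}

/-- the real and imaginary parts: `2 i A` -/
private def opH (A : E N →L[ℝ] E N) : Module.End ℝ (E N × E N) :=
  LinearMap.prod (-((2 : ℝ) • (A : E N →ₗ[ℝ] E N)).comp (LinearMap.snd ℝ (E N) (E N)))
    (((2 : ℝ) • (A : E N →ₗ[ℝ] E N)).comp (LinearMap.fst ℝ (E N) (E N)))

/-- the real and imaginary parts: `B + i C` -/
private def opE (B C : E N →L[ℝ] E N) : Module.End ℝ (E N × E N) :=
  LinearMap.prod
    ((B : E N →ₗ[ℝ] E N).comp (LinearMap.fst ℝ (E N) (E N)) -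
      (C : E N →ₗ[ℝ] E N).comp (LinearMap.snd ℝ (E N) (E N)))
    ((B : E N →ₗ[ℝ] E N).comp (LinearMap.snd ℝ (E N) (E N)) +
      (C : E N →ₗ[ℝ] E N).comp (LinearMap.fst ℝ (E N) (E N)))

private theorem opH_apply (A : E N →L[ℝ] E N) (x y : E N) :
    opH A (x, y) = (-((2 : ℝ) • A y), (2 : ℝ) • A x) := by
  simp [opH]

private theorem opE_apply (B C : E N →L[ℝ] E N) (x y : E N) :
    opE B C (x, y) = (B x - C y, B y + C x) := by
  simp [opE]

section lie

attribute [local instance 100] LieRing.ofAssociativeRing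

private theorem triple (A B C : E N →L[ℝ] E N)
    (h1 : A * B - B * A = C) (h2 : B * C - C * B = A) (h3 : C * A - A * C = B)
    (hne : opH A ≠ 0) :
    IsSl2Triple (opH A) (opE B C) (opE (-B) C) := by
  have e1 : ∀ x, A (B x) - B (A x) = C x := fun x => by rw [← h1]; rfl
  have e2 : ∀ x, B (C x) - C (B x) = A x := fun x => by rw [← h2]; rfl
  have e3 : ∀ x, C (A x) - A (C x) = B x := fun x => by rw [← h3]; rfl
  refine ⟨hne, ?_, ?_, ?_⟩
  · refine LinearMap.ext fun p => ?_
    obtain ⟨x, y⟩ := p
    rw [Ring.lie_def, LinearMap.sub_apply, Module.End.mul_apply, Module.End.mul_apply]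
    simp only [opE_apply, opH_apply]
    ext1
    · simp only [Prod.fst_sub, ← e2]
      simp only [neg_apply, map_sub, map_add, map_neg]
      module
    · simp only [Prod.snd_sub, ← e2]
      simp only [neg_apply, map_sub, map_add, map_neg]
      module
  · refine LinearMap.ext fun p => ?_
    obtain ⟨x, y⟩ := p
    rw [Ring.lie_def, LinearMap.sub_apply, Module.End.mul_apply, Module.End.mul_apply,
      LinearMap.smul_apply]
    simp only [opE_apply, opH_apply]
    have a1 := e1 x
    have a2 := e1 y
    have a3 := e3 x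
    have a4 := e3 y
    ext1
    · simp only [Prod.fst_sub, Prod.smul_fst]
      rw [← a2, ← a3]
      simp only [map_sub, map_add, map_neg, map_smul]
      module
    · simp only [Prod.snd_sub, Prod.smul_snd]
      rw [← a1, ← a4]
      simp only [map_sub, map_add, map_neg, map_smul]
      module
  · refine LinearMap.ext fun p => ?_
    obtain ⟨x, y⟩ := p
    rw [Ring.lie_def, LinearMap.sub_apply, Module.End.mul_apply, Module.End.mul_apply,
      LinearMap.neg_apply, LinearMap.smul_apply]
    simp only [opE_apply, opH_apply]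
    have a1 := e1 x
    have a2 := e1 y
    have a3 := e3 x
    have a4 := e3 y
    ext1
    · simp only [Prod.fst_sub, Prod.smul_fst, Prod.fst_neg, neg_apply]
      rw [← a2, ← a3]
      simp only [map_sub, map_add, map_neg, map_smul]
      module
    · simp only [Prod.snd_sub, Prod.smul_snd, Prod.snd_neg, neg_apply]
      rw [← a1, ← a4]
      simp only [map_sub, map_add, map_neg, map_smul]
      module

private theorem half_integer (A B C : E N →L[ℝ] E N)
    (h1 : A * B - B * A = C) (h2 : B * C - C * B = A) (h3 : C * A - A * C = B)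
    {μ : ℝ} (hμ : μ ≠ 0) {x : E N} (hx : x ≠ 0) (hA2 : A (A x) = -(μ ^ 2 • x)) :
    ∃ m : ℤ, 2 * μ = m := by
  obtain ⟨v, hv⟩ : ∃ v : E N × E N, v = (x, -(μ⁻¹ • A x)) := ⟨_, rfl⟩
  have hv0 : v ≠ 0 := by
    rw [hv]
    intro h
    exact hx (congrArg Prod.fst h)
  have hHv : opH A v = (-2 * μ) • v := by
    rw [hv, opH_apply]
    ext1
    · simp only [Prod.smul_fst, map_neg, map_smul, hA2]
      rw [smul_neg, smul_neg, smul_neg, neg_neg, smul_smul, smul_smul, ← neg_smul]
      congr 1
      field_simp
    · simp only [Prod.smul_snd]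
      rw [smul_neg, smul_smul, ← neg_smul]
      congr 1
      field_simp
  have hne : opH A ≠ 0 := by
    intro h
    rw [h, LinearMap.zero_apply] at hHv
    rcases smul_eq_zero.1 hHv.symm with h' | h'
    · exact hμ (by linarith)
    · exact hv0 h'
  have t := triple A B C h1 h2 h3 hne
  have hpow : ∀ k : ℕ, opH A ((opE B C ^ k) v) = (-2 * μ + 2 * k) • (opE B C ^ k) v := by
    intro k
    induction k with
    | zero => simpa using hHv
    | succ k ih =>
      have h4 : opH A * opE B C = opE B C * opH A + (2 : ℝ) • opE B C := by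
        have := t.lie_h_e_smul ℝ
        rw [Ring.lie_def] at this
        rw [← this]
        abel
      have h5 : (opE B C ^ (k + 1)) v = opE B C ((opE B C ^ k) v) := by
        rw [pow_succ', Module.End.mul_apply]
      rw [h5, ← Module.End.mul_apply, h4, LinearMap.add_apply, Module.End.mul_apply, ih,
        LinearMap.smul_apply, map_smul, ← add_smul]
      congr 1
      push_cast
      ring
  have hex : ∃ k : ℕ, (opE B C ^ k) v = 0 := by
    by_contra hcon
    have hcon : ∀ k : ℕ, (opE B C ^ k) v ≠ 0 := fun k hk => hcon ⟨k, hk⟩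
    have hfin := (opH A).finite_hasEigenvalue
    have hinj : Function.Injective (fun k : ℕ => -2 * μ + 2 * (k : ℝ)) := by
      intro a b hab
      have : (a : ℝ) = b := by
        have h := hab
        simp only at h
        linarith
      exact_mod_cast this
    refine Set.infinite_of_injective_forall_mem hinj (fun k => ?_) hfin
    exact Module.End.hasEigenvalue_of_hasEigenvector
      ⟨Module.End.mem_eigenspace_iff.2 (hpow k), hcon k⟩
  classical
  obtain ⟨k, hk, hkmin⟩ : ∃ k : ℕ, (opE B C ^ (k + 1)) v = 0 ∧ (opE B C ^ k) v ≠ 0 := by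
    have hs := Nat.find_spec hex
    have hm := fun j (hj : j < Nat.find hex) => Nat.find_min hex hj
    obtain ⟨n, hn⟩ : ∃ n, Nat.find hex = n := ⟨_, rfl⟩
    rw [hn] at hs hm
    cases n with
    | zero => exact absurd hs (by simpa using hv0)
    | succ n => exact ⟨n, hs, hm n (Nat.lt_succ_self n)⟩
  have P : IsSl2Triple.HasPrimitiveVectorWith t ((opE B C ^ k) v) (-2 * μ + 2 * (k : ℝ)) := by
    refine ⟨hkmin, hpow k, ?_⟩
    rw [Module.End.lie_apply, ← Module.End.mul_apply, ← pow_succ']
    exact hk
  obtain ⟨n, hn⟩ := P.exists_nat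
  refine ⟨2 * k - n, ?_⟩
  push_cast
  linarith

end lie

private theorem fl_deriv (A : E N →L[ℝ] E N) (t : ℝ) :
    HasDerivAt (fun s : ℝ => fl A s) (fl A t * A) t :=
  hasDerivAt_exp_smul_const A t

private theorem fix_of_sq (A : E N →L[ℝ] E N) {μ : ℝ} (hμ : μ ≠ 0) {x : E N}
    (hA2 : A (A x) = -(μ ^ 2 • x)) {m : ℤ} (hm : 2 * μ = m) : fl A (4 * Real.pi) x = x := by
  obtain ⟨u, hu⟩ : ∃ u : ℝ → E N, u = fun t => Real.cos (μ * t) • x +
      (μ⁻¹ * Real.sin (μ * t)) • (-A x) := ⟨_, rfl⟩
  have hu' : ∀ t, HasDerivAt u (-A (u t)) t := by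
    intro t
    have h1 : HasDerivAt (fun t : ℝ => μ * t) μ t := by
      simpa using (hasDerivAt_id t).const_mul μ
    have h2 := (h1.cos.smul_const x).fun_add ((h1.sin.const_mul μ⁻¹).smul_const (-A x))
    rw [hu]
    refine h2.congr_deriv ?_
    simp only [map_add, map_smul, map_neg, hA2]
    have : μ⁻¹ * (Real.cos (μ * t) * μ) = Real.cos (μ * t) := by field_simp
    rw [this, smul_neg, neg_neg, smul_smul]
    have h3 : μ⁻¹ * Real.sin (μ * t) * μ ^ 2 = Real.sin (μ * t) * μ := by
      field_simp
    rw [h3]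
    module
  have hG : ∀ t, HasDerivAt (fun t => fl A t (u t)) 0 t := by
    intro t
    refine ((fl_deriv A t).clm_apply (hu' t)).congr_deriv ?_
    rw [map_neg]
    exact add_neg_cancel _
  have hc : fl A (4 * Real.pi) (u (4 * Real.pi)) = fl A 0 (u 0) :=
    is_const_of_deriv_eq_zero (fun t => (hG t).differentiableAt) (fun t => (hG t).deriv) _ _
  have hu0 : u 0 = x := by
    rw [hu]
    simp
  have hu1 : u (4 * Real.pi) = x := by
    rw [hu]
    have e1 : μ * (4 * Real.pi) = m * (2 * Real.pi) := by
      rw [← hm]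
      ring
    have e2 : Real.sin ((m : ℝ) * (2 * Real.pi)) = 0 := by
      have := Real.sin_int_mul_pi (2 * m)
      rw [← this]
      congr 1
      push_cast
      ring
    simp only [e1, Real.cos_int_mul_two_pi, e2]
    simp
  have h0 : fl A 0 = 1 := (congrArg NormedSpace.exp (zero_smul ℝ A)).trans NormedSpace.exp_zero
  rw [hu1, hu0, h0] at hc
  exact hc

private theorem fix_of_zero (A : E N →L[ℝ] E N) {x : E N} (hx : A x = 0) (t : ℝ) :
    fl A t x = x := by
  have hG : ∀ t, HasDerivAt (fun t => fl A t x) 0 t := by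
    intro t
    refine ((fl_deriv A t).clm_apply (hasDerivAt_const t x)).congr_deriv ?_
    simp [hx]
  have hc : fl A t x = fl A 0 x :=
    is_const_of_deriv_eq_zero (fun t => (hG t).differentiableAt) (fun t => (hG t).deriv) _ _
  have h0 : fl A 0 = 1 := (congrArg NormedSpace.exp (zero_smul ℝ A)).trans NormedSpace.exp_zero
  rw [hc, h0]
  rfl

/-- In an orthogonal representation of `so(3)` the one-parameter group of `A` has period `4π`.
(Complexify; `i A` is self-adjoint, so diagonalizable; if `v` is an eigenvector of `A` with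
eigenvalue `i μ` apply `B + i C` repeatedly, which raises `μ` by one, until zero; the last nonzero
vector is a primitive vector, so `2 (μ + j)` is a natural number by
`IsSl2Triple.HasPrimitiveVectorWith.exists_nat`; hence `exp (4 π i μ) = 1`.) -/
theorem periodic (A B C : E N →L[ℝ] E N) (hA : Skew A) (hB : Skew B) (hC : Skew C)
    (h1 : A * B - B * A = C) (h2 : B * C - C * B = A) (h3 : C * A - A * C = B) :
    fl A (4 * Real.pi) = 1 := by
  have hS : (((A * A : E N →L[ℝ] E N)) : E N →ₗ[ℝ] E N).IsSymmetric := by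
    intro x y
    change inner ℝ (A (A x)) y = inner ℝ x (A (A y))
    rw [hA, hA x, neg_neg]
  have hn : Module.finrank ℝ (E N) = N := by simp
  have key : ∀ i, fl A (4 * Real.pi) (hS.eigenvectorBasis hn i) = hS.eigenvectorBasis hn i := by
    intro i
    obtain ⟨x, hx⟩ : ∃ x, x = hS.eigenvectorBasis hn i := ⟨_, rfl⟩
    have hxn : ‖x‖ = 1 := by
      rw [hx]
      exact (hS.eigenvectorBasis hn).orthonormal.1 i
    have hx0 : x ≠ 0 := by
      intro h
      rw [h, norm_zero] at hxn
      exact zero_ne_one hxn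
    have hev : A (A x) = (hS.eigenvalues hn i) • x := by
      have := hS.apply_eigenvectorBasis hn i
      rw [← hx] at this
      exact this
    have hval : hS.eigenvalues hn i = -‖A x‖ ^ 2 := by
      have h4 : inner ℝ (A (A x)) x = -inner ℝ (A x) (A x) := hA _ _
      rw [hev, inner_smul_left, real_inner_self_eq_norm_sq, real_inner_self_eq_norm_sq, hxn] at h4
      simpa using h4
    rw [← hx]
    by_cases hAx : A x = 0
    · exact fix_of_zero A hAx _
    · have hμ : ‖A x‖ ≠ 0 := norm_ne_zero_iff.2 hAx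
      have hA2 : A (A x) = -(‖A x‖ ^ 2 • x) := by
        rw [hev, hval, neg_smul]
      obtain ⟨m, hm⟩ := half_integer A B C h1 h2 h3 hμ hx0 hA2
      exact fix_of_sq A hμ hA2 hm
  have hlin : ((fl A (4 * Real.pi) : E N →L[ℝ] E N) : E N →ₗ[ℝ] E N) = LinearMap.id := by
    refine (hS.eigenvectorBasis hn).toBasis.ext fun i => ?_
    rw [OrthonormalBasis.coe_toBasis]
    exact key i
  ext1 x
  exact LinearMap.congr_fun hlin x

end P216
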