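import Mathlib
import Vale.Agent.Lib.P216.Defs
import Vale.Agent.Lib.P216.Flow

namespace P216

variable {N : ℕ}

open Filter Topology

/-- If the orbit of `x` under `exp(sB)` lies in the closed orbit of `x` under `exp(tA)` and
`A x ≠ 0` then `B x` is a multiple of `A x`. (Take `t s` with `exp(sB)x = exp((t s)A)x`,
`|t s|` at most one period and, by compactness and minimality of the distance to the stabiliser,
`t s → 0` modulo the stabiliser; divide by `s`. The stabiliser of `x` in `ℝ` is a closed proper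
subgroup, hence discrete, because `A x ≠ 0`.) -/
theorem tangent (A B : E N →L[ℝ] E N) (x : E N) (hx : A x ≠ 0) (τ : ℝ) (hτ : 0 < τ)
    (hper : fl A τ = 1) (hB : ∀ s, ∃ t, fl B s x = fl A t x) : ∃ b : ℝ, B x = b • A x := by
  obtain ⟨f, hf⟩ : ∃ f : ℝ → E N, f = fun t => fl A t x := ⟨_, rfl⟩
  obtain ⟨g, hg⟩ : ∃ g : ℝ → E N, g = fun t => fl B t x := ⟨_, rfl⟩
  have hf' : ∀ t, f t = fl A t x := fun t => by rw [hf]
  have hg' : ∀ t, g t = fl B t x := fun t => by rw [hg]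
  have hf0 : f 0 = x := by rw [hf', fl_zero]; rfl
  have hg0 : g 0 = x := by rw [hg', fl_zero]; rfl
  have hfd : ∀ t, HasDerivAt f (A (fl A t x)) t := fun t => by
    rw [hf]
    exact fl_hasDerivAt t x
  have hfd0 : HasDerivAt f (A x) 0 := by
    have h1 := hfd 0
    rw [← hf' 0, hf0] at h1
    exact h1
  have hgd0 : HasDerivAt g (B x) 0 := by
    have h1 : HasDerivAt g (B (fl B 0 x)) 0 := by
      rw [hg]
      exact fl_hasDerivAt 0 x
    rw [← hg' 0, hg0] at h1
    exact h1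
  have hfc : Continuous f := continuous_iff_continuousAt.2 fun t => (hfd t).continuousAt
  have hP : Function.Periodic f τ := by
    intro t
    rw [hf', hf', fl_add, hper]
    rfl
  have hch : ∀ n : ℕ, ∃ t ∈ Set.Icc (0 : ℝ) τ, g (1 / ((n : ℝ) + 1)) = f t := by
    intro n
    obtain ⟨t, ht⟩ := hB (1 / ((n : ℝ) + 1))
    obtain ⟨y, hy, hy2⟩ := hP.exists_mem_Ico₀ hτ t
    refine ⟨y, ⟨hy.1, hy.2.le⟩, ?_⟩
    rw [hg', ht, ← hf' t, hy2]
  choose t ht htf using hch
  obtain ⟨t0, -, φ, hφ, hlim⟩ := isCompact_Icc.tendsto_subseq ht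
  have hs : Tendsto (fun n : ℕ => 1 / (((φ n : ℕ) : ℝ) + 1)) atTop (𝓝 0) :=
    (tendsto_one_div_add_atTop_nhds_zero_nat (𝕜 := ℝ)).comp hφ.tendsto_atTop
  have hst : f t0 = x := by
    have h1 : Tendsto (fun n => f (t (φ n))) atTop (𝓝 (f t0)) :=
      (hfc.tendsto t0).comp hlim
    have h2 : Tendsto (fun n => g (1 / (((φ n : ℕ) : ℝ) + 1))) atTop (𝓝 (g 0)) :=
      (hgd0.continuousAt.tendsto).comp hs
    have h3 : (fun n => f (t (φ n))) = fun n => g (1 / (((φ n : ℕ) : ℝ) + 1)) :=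
      funext fun n => (htf (φ n)).symm
    rw [h3] at h1
    rw [tendsto_nhds_unique h1 h2, hg0]
  have hu : ∀ n, f (t (φ n) - t0) = g (1 / (((φ n : ℕ) : ℝ) + 1)) := by
    intro n
    have h1 : fl A (-t0) x = x := by
      conv_lhs => rw [← hst, hf']
      exact fl_neg_cancel t0 x
    rw [htf (φ n), hf', hf', sub_eq_add_neg, fl_add, h1]
  have hu0 : Tendsto (fun n => t (φ n) - t0) atTop (𝓝 0) := by
    have h1 := hlim.sub_const t0
    rw [sub_self] at h1
    exact h1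
  have hdf : Tendsto (fun n => dslope f 0 (t (φ n) - t0)) atTop (𝓝 (A x)) := by
    have h1 : ContinuousAt (dslope f 0) 0 := continuousAt_dslope_same.2 hfd0.differentiableAt
    have h2 : dslope f 0 0 = A x := by rw [dslope_same, hfd0.deriv]
    have h3 := h1.tendsto.comp hu0
    rw [h2] at h3
    exact h3
  have hdg : Tendsto (fun n => dslope g 0 (1 / (((φ n : ℕ) : ℝ) + 1))) atTop (𝓝 (B x)) := by
    have h1 : ContinuousAt (dslope g 0) 0 := continuousAt_dslope_same.2 hgd0.differentiableAt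
    have h2 : dslope g 0 0 = B x := by rw [dslope_same, hgd0.deriv]
    have h3 := h1.tendsto.comp hs
    rw [h2] at h3
    exact h3
  obtain ⟨c, hc⟩ : ∃ c : ℕ → ℝ, c = fun n => (t (φ n) - t0) / (1 / (((φ n : ℕ) : ℝ) + 1)) :=
    ⟨_, rfl⟩
  have hrel : ∀ n, dslope g 0 (1 / (((φ n : ℕ) : ℝ) + 1)) =
      c n • dslope f 0 (t (φ n) - t0) := by
    intro n
    have hpos : (1 / (((φ n : ℕ) : ℝ) + 1)) ≠ 0 := by positivity
    have h1 := sub_smul_dslope f 0 (t (φ n) - t0)
    have h2 := sub_smul_dslope g 0 (1 / (((φ n : ℕ) : ℝ) + 1))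
    rw [sub_zero] at h1 h2
    rw [hf0, hu n] at h1
    rw [hg0] at h2
    have h3 : (1 / (((φ n : ℕ) : ℝ) + 1)) • dslope g 0 (1 / (((φ n : ℕ) : ℝ) + 1)) =
        (t (φ n) - t0) • dslope f 0 (t (φ n) - t0) := h2.trans h1.symm
    have h4 := congrArg (fun v => (1 / (((φ n : ℕ) : ℝ) + 1))⁻¹ • v) h3
    simp only [smul_smul] at h4
    rw [inv_mul_cancel₀ hpos, one_smul] at h4
    have h5 : c n = (1 / (((φ n : ℕ) : ℝ) + 1))⁻¹ * (t (φ n) - t0) := by
      rw [hc, mul_comm]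
      exact div_eq_mul_inv _ _
    rw [h4, h5]
  have hA2 : inner ℝ (A x) (A x) ≠ (0 : ℝ) := inner_self_ne_zero.2 hx
  have hin1 : Tendsto (fun n => inner ℝ (dslope f 0 (t (φ n) - t0)) (A x)) atTop
      (𝓝 (inner ℝ (A x) (A x))) := hdf.inner tendsto_const_nhds
  have hin2 : Tendsto (fun n => inner ℝ (dslope g 0 (1 / (((φ n : ℕ) : ℝ) + 1))) (A x)) atTop
      (𝓝 (inner ℝ (B x) (A x))) := hdg.inner tendsto_const_nhds
  have hclim : Tendsto c atTop (𝓝 (inner ℝ (B x) (A x) / inner ℝ (A x) (A x))) := by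
    refine (hin2.div hin1 hA2).congr' ?_
    filter_upwards [hin1.eventually_ne hA2] with n hn
    simp only [Pi.div_apply]
    rw [hrel n, inner_smul_left]
    simp only [conj_trivial]
    rw [mul_div_assoc, div_self hn, mul_one]
  refine ⟨inner ℝ (B x) (A x) / inner ℝ (A x) (A x), ?_⟩
  have h1 : Tendsto (fun n => c n • dslope f 0 (t (φ n) - t0)) atTop
      (𝓝 ((inner ℝ (B x) (A x) / inner ℝ (A x) (A x)) • A x)) := hclim.smul hdf
  have h2 : (fun n => c n • dslope f 0 (t (φ n) - t0)) =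
      fun n => dslope g 0 (1 / (((φ n : ℕ) : ℝ) + 1)) := funext fun n => (hrel n).symm
  rw [h2] at h1
  exact tendsto_nhds_unique hdg h1

end P216
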