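import Mathlib
import Vale.Agent.Lib.P216.Flow
import Vale.Agent.Lib.P216.Tan
import Vale.Agent.Lib.P216.Per

open scoped ContDiff

namespace P216

variable {N : ℕ}

theorem alg (A B C : E N →L[ℝ] E N) (h1 : A * B - B * A = C) (h2 : B * C - C * B = A)
    (h3 : C * A - A * C = B) (x : E N) (b c : ℝ) (hb : B x = b • A x) (hc : C x = c • A x) :
    A x = 0 := by
  have e1 : A (B x) - B (A x) = C x := by rw [← h1]; rfl
  have e2 : B (C x) - C (B x) = A x := by
    have := congrArg (fun T : E N →L[ℝ] E N => T x) h2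
    exact this
  have e3 : C (A x) - A (C x) = B x := by
    have := congrArg (fun T : E N →L[ℝ] E N => T x) h3
    exact this
  rw [hb, hc, map_smul] at e1
  rw [hb, hc, map_smul, map_smul] at e2
  rw [hb, hc, map_smul] at e3
  have f1 : B (A x) = b • A (A x) - c • A x := by rw [← e1]; abel
  have f3 : C (A x) = b • A x + c • A (A x) := by rw [← e3]; abel
  rw [f1, f3] at e2
  have e4 : (1 + b ^ 2 + c ^ 2) • A x = 0 := by
    have : A x - (c • (b • A (A x) - c • A x) - b • (b • A x + c • A (A x))) = 0 := by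
      rw [e2, sub_self]
    rw [← this]
    module
  exact (smul_eq_zero.mp e4).resolve_left (by positivity)

theorem fl_norm {A : E N →L[ℝ] E N} (hA : Skew A) (t : ℝ) (x : E N) : ‖fl A t x‖ = ‖x‖ := by
  have h := fl_inner hA t x x
  rw [real_inner_self_eq_norm_sq, real_inner_self_eq_norm_sq] at h
  exact (sq_eq_sq₀ (norm_nonneg _) (norm_nonneg _)).mp h

theorem geodesic_orbit (M : Set (E N)) (A : E N →L[ℝ] E N) (hA : Skew A)
    (hM : ∀ t, ∀ y ∈ M, fl A t y ∈ M) (x : E N) (hx : x ∈ M)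
    (hmax : ∀ y ∈ M, ‖A y‖ ≤ ‖A x‖) : IsGeodesic M (fun t => fl A t x) := by
  refine ⟨fl_contDiff x, fun t => hM t x hx, fun t β hβ hβM hβ0 => ?_⟩
  have d1 : deriv (fun t => fl A t x) = fun t => fl A t (A x) := by
    funext t
    rw [(fl_hasDerivAt t x).deriv, fl_comm]
  have d2 : deriv (deriv (fun t => fl A t x)) t = A (A (fl A t x)) := by
    rw [d1, (fl_hasDerivAt t (A x)).deriv, fl_comm t x]
  rw [d2]
  have hβd : HasDerivAt β (deriv β 0) 0 :=
    ((hβ.differentiable (by simp)) 0).hasDerivAt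
  have hAβ : HasDerivAt (fun s => A (β s)) (A (deriv β 0)) 0 :=
    A.hasFDerivAt.comp_hasDerivAt 0 hβd
  have hf := hAβ.inner ℝ hAβ
  have hloc : IsLocalMax (fun s => inner ℝ (A (β s)) (A (β s))) 0 := by
    refine Filter.Eventually.of_forall fun s => ?_
    show inner ℝ (A (β s)) (A (β s)) ≤ inner ℝ (A (β 0)) (A (β 0))
    rw [real_inner_self_eq_norm_sq, real_inner_self_eq_norm_sq, hβ0, fl_comm, fl_norm hA]
    have := hmax (β s) (hβM s)
    exact pow_le_pow_left₀ (norm_nonneg _) this 2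
  have h0 := hloc.hasDerivAt_eq_zero hf
  rw [real_inner_comm (A (deriv β 0)) (A (β 0)), hβ0] at h0
  have h00 : inner ℝ (A (deriv β 0)) (A (fl A t x)) +
      inner ℝ (A (deriv β 0)) (A (fl A t x)) = 0 := h0
  have h1 : inner ℝ (A (fl A t x)) (A (deriv β 0)) = 0 := by
    rw [real_inner_comm]
    linarith
  rw [hA (A (fl A t x)) (deriv β 0), h1, neg_zero]

theorem geodesic_image (M : Set (E N)) (B : E N →L[ℝ] E N) (hB : Skew B)
    (hM : ∀ t, ∀ y ∈ M, fl B t y ∈ M) (s : ℝ) (c : ℝ → E N) (hc : IsGeodesic M c) :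
    IsGeodesic M (fun t => fl B s (c t)) := by
  obtain ⟨hc1, hc2, hc3⟩ := hc
  refine ⟨(fl B s).contDiff.comp hc1, fun t => hM s _ (hc2 t), fun t β hβ hβM hβ0 => ?_⟩
  have dd : ∀ (g : ℝ → E N) (t : ℝ), DifferentiableAt ℝ g t →
      deriv (fun t => fl B s (g t)) t = fl B s (deriv g t) := fun g t hg =>
    ((fl B s).hasFDerivAt.comp_hasDerivAt t hg.hasDerivAt).deriv
  have hc1' : ContDiff ℝ ∞ (deriv c) := by
    have := (contDiff_infty_iff_deriv (f := c)).mp hc1
    exact this.2
  have d1 : deriv (fun t => fl B s (c t)) = fun t => fl B s (deriv c t) := by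
    funext t
    exact dd c t ((hc1.differentiable (by simp)) t)
  have d2 : deriv (deriv (fun t => fl B s (c t))) t = fl B s (deriv (deriv c) t) := by
    rw [d1]
    exact dd (deriv c) t ((hc1'.differentiable (by simp)) t)
  rw [d2]
  have hβd : HasDerivAt β (deriv β 0) 0 :=
    ((hβ.differentiable (by simp)) 0).hasDerivAt
  have hβ' : deriv (fun u => fl B (-s) (β u)) 0 = fl B (-s) (deriv β 0) :=
    ((fl B (-s)).hasFDerivAt.comp_hasDerivAt 0 hβd).deriv
  have h1 := hc3 t (fun u => fl B (-s) (β u)) ((fl B (-s)).contDiff.comp hβ)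
    (fun u => hM (-s) _ (hβM u)) (by
      show fl B (-s) (β 0) = c t
      rw [hβ0, fl_neg_cancel])
  rw [hβ'] at h1
  have h2 := fl_neg_cancel (A := B) (-s) (deriv β 0)
  rw [neg_neg] at h2
  have h3 := fl_inner hB s (deriv (deriv c) t) (fl B (-s) (deriv β 0))
  rw [h2, h1] at h3
  exact h3

theorem all_of_finite (B : E N →L[ℝ] E N) (K : Set (E N))
    (hfin : (Set.range (fun s : ℝ => fl B s '' K)).Finite) (s : ℝ) : fl B s '' K = K := by
  have hadd : ∀ s t : ℝ, fl B (s + t) '' K = fl B s '' (fl B t '' K) := by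
    intro s t
    rw [← Set.image_comp]
    exact Set.image_congr fun y _ => fl_add s t y
  have hzero : fl B 0 '' K = K := by
    rw [fl_zero]
    simp
  have hneg : ∀ s : ℝ, ∀ L : Set (E N), fl B (-s) '' (fl B s '' L) = L := by
    intro s L
    rw [← Set.image_comp]
    have : (fun y => (fl B (-s) ∘ fl B s) y) = fun y => y := by
      funext y
      exact fl_neg_cancel s y
    rw [show (⇑(fl B (-s)) ∘ ⇑(fl B s)) = id from this, Set.image_id]
  let H : AddSubgroup ℝ :=
    { carrier := {s | fl B s '' K = K}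
      add_mem' := by
        intro a b ha hb
        show fl B (a + b) '' K = K
        rw [hadd, show fl B b '' K = K from hb, show fl B a '' K = K from ha]
      zero_mem' := hzero
      neg_mem' := by
        intro a ha
        show fl B (-a) '' K = K
        conv_lhs => rw [← show fl B a '' K = K from ha]
        exact hneg a K }
  have hK : ∀ a b : ℝ, fl B a '' K = fl B b '' K → -a + b ∈ H := by
    intro a b hab
    show fl B (-a + b) '' K = K
    rw [hadd, ← hab, hneg]
  have hfinq : Finite (ℝ ⧸ H) := by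
    have := hfin.to_subtype
    let φ : ℝ ⧸ H → Set.range (fun s : ℝ => fl B s '' K) := fun q =>
      ⟨fl B (Quotient.out q) '' K, ⟨_, rfl⟩⟩
    refine Finite.of_injective φ fun q q' hqq => ?_
    have h1 : fl B (Quotient.out q) '' K = fl B (Quotient.out q') '' K :=
      congrArg Subtype.val hqq
    have h2 := hK _ _ h1
    rw [← QuotientAddGroup.eq, QuotientAddGroup.out_eq', QuotientAddGroup.out_eq'] at h2
    exact h2
  have hidx : H.index ≠ 0 := AddSubgroup.index_ne_zero_of_finite
  have h3 : H.index • (s / H.index) ∈ H := AddSubgroup.nsmul_index_mem H (s / H.index)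
  have h4 : H.index • (s / (H.index : ℝ)) = s := by
    rw [nsmul_eq_mul]
    field_simp
  rw [h4] at h3
  exact h3

/-- The orthogonal `SU(2)`-action on the compact invariant set `M`. -/
theorem infinite_geodesics (M : Set (E N)) (hMc : IsCompact M) (A B C : E N →L[ℝ] E N)
    (hA : Skew A) (hB : Skew B) (hC : Skew C)
    (h1 : A * B - B * A = C) (h2 : B * C - C * B = A) (h3 : C * A - A * C = B)
    (hMA : ∀ t, ∀ y ∈ M, fl A t y ∈ M) (hMB : ∀ t, ∀ y ∈ M, fl B t y ∈ M)
    (hMC : ∀ t, ∀ y ∈ M, fl C t y ∈ M) (hne : ∃ y ∈ M, A y ≠ 0) :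
    Set.Infinite {K : Set (E N) | ∃ c : ℝ → E N, IsClosedGeodesic M c ∧ K = Set.range c} := by
  intro hfin
  obtain ⟨y, hy, hAy⟩ := hne
  obtain ⟨x, hx, hmax⟩ := hMc.exists_isMaxOn ⟨y, hy⟩
    (f := fun z => ‖A z‖) (by fun_prop)
  have hmax' : ∀ z ∈ M, ‖A z‖ ≤ ‖A x‖ := fun z hz => hmax hz
  have hAx : A x ≠ 0 := by
    intro h0
    have := hmax' y hy
    rw [h0, norm_zero] at this
    exact hAy (norm_le_zero_iff.mp this)
  have hper := periodic A B C hA hB hC h1 h2 h3
  have hτ : (0 : ℝ) < 4 * Real.pi := by positivity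
  let c : ℝ → E N := fun t => fl A t x
  have hgeo : IsGeodesic M c := geodesic_orbit M A hA hMA x hx hmax'
  have hper' : ∀ t, c (t + 4 * Real.pi) = c t := by
    intro t
    show fl A (t + 4 * Real.pi) x = fl A t x
    rw [fl_add, hper]
    rfl
  have hnc : ∃ s t, c s ≠ c t := by
    by_contra hcon
    push Not at hcon
    have hd := fl_hasDerivAt (A := A) 0 x
    have hconst : (fun s => fl A s x) = fun _ => c 0 := by
      funext s
      exact hcon s 0
    rw [hconst] at hd
    have h5 := hd.unique (hasDerivAt_const 0 (c 0))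
    rw [fl_zero] at h5
    exact hAx h5
  have hcl : ∀ (D : E N →L[ℝ] E N), Skew D → (∀ t, ∀ y ∈ M, fl D t y ∈ M) → ∀ s,
      IsClosedGeodesic M (fun t => fl D s (c t)) := by
    intro D hD hMD s
    refine ⟨geodesic_image M D hD hMD s c hgeo, ?_, 4 * Real.pi, hτ, fun t => ?_⟩
    · obtain ⟨a, b, hab⟩ := hnc
      refine ⟨a, b, fun h => hab ?_⟩
      have := congrArg (fl D (-s)) h
      simp only [fl_neg_cancel] at this
      exact this
    · show fl D s (c (t + 4 * Real.pi)) = fl D s (c t)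
      rw [hper']
  have hall : ∀ (D : E N →L[ℝ] E N), Skew D → (∀ t, ∀ y ∈ M, fl D t y ∈ M) →
      ∃ b : ℝ, D x = b • A x := by
    intro D hD hMD
    have hK : (Set.range (fun s : ℝ => fl D s '' Set.range c)).Finite := by
      refine hfin.subset ?_
      rintro _ ⟨s, rfl⟩
      exact ⟨_, hcl D hD hMD s, (Set.range_comp _ _).symm⟩
    refine tangent A D x hAx (4 * Real.pi) hτ hper fun s => ?_
    have h6 := all_of_finite D (Set.range c) hK s
    have h7 : fl D s x ∈ fl D s '' Set.range c := by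
      refine ⟨x, ⟨0, ?_⟩, rfl⟩
      show fl A 0 x = x
      rw [fl_zero]
      rfl
    rw [h6] at h7
    obtain ⟨t, ht⟩ := h7
    exact ⟨t, ht.symm⟩
  obtain ⟨b, hb⟩ := hall B hB hMB
  obtain ⟨d, hd⟩ := hall C hC hMC
  exact hAx (alg A B C h1 h2 h3 x b d hb hd)

end P216
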