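import Mathlib
import Vale.Agent.Lib.P216.Main

open scoped ContDiff

namespace P216

variable {N : ℕ}

/-- A periodic symmetry `A`, a point `x` of maximal `A`-speed and a second symmetry `D` whose
velocity at `x` is not parallel to that of `A`. -/
theorem infinite_of_two (M : Set (E N)) (A D : E N →L[ℝ] E N)
    (hA : Skew A) (hD : Skew D) (τ : ℝ) (hτ : 0 < τ) (hper : fl A τ = 1)
    (hMA : ∀ t, ∀ y ∈ M, fl A t y ∈ M) (hMD : ∀ t, ∀ y ∈ M, fl D t y ∈ M)
    (x : E N) (hx : x ∈ M) (hmax' : ∀ z ∈ M, ‖A z‖ ≤ ‖A x‖) (hAx : A x ≠ 0)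
    (hind : ∀ b : ℝ, D x ≠ b • A x) :
    Set.Infinite {K : Set (E N) | ∃ c : ℝ → E N, IsClosedGeodesic M c ∧ K = Set.range c} := by
  intro hfin
  let c : ℝ → E N := fun t => fl A t x
  have hgeo : IsGeodesic M c := geodesic_orbit M A hA hMA x hx hmax'
  have hper' : ∀ t, c (t + τ) = c t := by
    intro t
    show fl A (t + τ) x = fl A t x
    rw [fl_add, hper]
    rfl
  have hnc : ∃ s t, c s ≠ c t := by
    by_contra hcon
    push Not at hcon
    have hd := fl_hasDerivAt (A := A) 0 x
    have hconst : (fun s => fl A s x) = fun _ => c 0 := by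
      funext s
      exact hcon s 0
    rw [hconst] at hd
    have h5 := hd.unique (hasDerivAt_const 0 (c 0))
    rw [fl_zero] at h5
    exact hAx h5
  have hcl : ∀ s, IsClosedGeodesic M (fun t => fl D s (c t)) := by
    intro s
    refine ⟨geodesic_image M D hD hMD s c hgeo, ?_, τ, hτ, fun t => ?_⟩
    · obtain ⟨a, b, hab⟩ := hnc
      refine ⟨a, b, fun h => hab ?_⟩
      have := congrArg (fl D (-s)) h
      simp only [fl_neg_cancel] at this
      exact this
    · show fl D s (c (t + τ)) = fl D s (c t)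
      rw [hper']
  have hK : (Set.range (fun s : ℝ => fl D s '' Set.range c)).Finite := by
    refine hfin.subset ?_
    rintro _ ⟨s, rfl⟩
    exact ⟨_, hcl s, (Set.range_comp _ _).symm⟩
  obtain ⟨b, hb⟩ := tangent A D x hAx τ hτ hper fun s => by
    have h6 := all_of_finite D (Set.range c) hK s
    have h7 : fl D s x ∈ fl D s '' Set.range c := by
      refine ⟨x, ⟨0, ?_⟩, rfl⟩
      show fl A 0 x = x
      rw [fl_zero]
      rfl
    rw [h6] at h7
    obtain ⟨t, ht⟩ := h7
    exact ⟨t, ht.symm⟩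
  exact hind b hb

end P216
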